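import Vale.Agent.P054.T3.H398.Cnt

set_option autoImplicit false
set_option linter.all false

/-!
# P054 / T3 / H197: counting flags (point, line) instead of pairs

`lns adj S s`: the lines through `s` which contain a point of `S` adjacent to `s`.
`Wf adj S = ∑ s ∈ S, #(lns adj S s)`.
`cntW`: cliques `SF F ⊆ S`, class map with at most `κ₀` classes on each of them:
`∑ #(SF F)² ≤ C κ₀ (∑ c, Wf (S_c) + ∑ F, ∑ s ∈ SF F, (m F s + L + 1))`, `m F s` = number of shared
lines of `SF F` through `s`.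
-/

namespace Vale.Agent.P054.T3.H197

open Finset
open Vale.Agent.P054.T3.H109.Gen (onL lineC st_pairs lineC_eq)
open Vale.Agent.P054.T3.H398 (onL_trans)

variable {V κ C : Type*} [AddCommGroup V] [Module ℝ V]

open scoped Classical in
/-- the lines through `s` with an adjacent point of `S` -/
noncomputable def lns (adj : V → V → Prop) (S : Finset V) (s : V) : Finset (Submodule ℝ V) :=
  (S.filter (adj s)).image fun r => Submodule.span ℝ {r - s}

/-- the number of flags -/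
noncomputable def Wf (adj : V → V → Prop) (S : Finset V) : ℕ := ∑ s ∈ S, (lns adj S s).card

theorem mem_lns {adj : V → V → Prop} {S : Finset V} {s : V} {ℓ : Submodule ℝ V} :
    ℓ ∈ lns adj S s ↔ ∃ r ∈ S, adj s r ∧ Submodule.span ℝ {r - s} = ℓ := by
  classical
  unfold lns
  rw [mem_image]
  constructor
  · rintro ⟨r, hr, h⟩
    rw [mem_filter] at hr
    exact ⟨r, hr.1, hr.2, h⟩
  · rintro ⟨r, hr, h1, h⟩
    exact ⟨r, mem_filter.2 ⟨hr, h1⟩, h⟩

theorem lns_mono {adj : V → V → Prop} {S S' : Finset V} (h : S ⊆ S') (s : V) :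
    lns adj S s ⊆ lns adj S' s := by
  intro ℓ hℓ
  obtain ⟨r, hr, h1, h2⟩ := mem_lns.1 hℓ
  exact mem_lns.2 ⟨r, h hr, h1, h2⟩

theorem lns_card_mono {adj : V → V → Prop} {S S' : Finset V} (h : S ⊆ S') (s : V) :
    (lns adj S s).card ≤ (lns adj S' s).card := card_le_card (lns_mono h s)

theorem Wf_mono {adj : V → V → Prop} {S S' : Finset V} (h : S ⊆ S') : Wf adj S ≤ Wf adj S' := by
  unfold Wf
  calc ∑ s ∈ S, (lns adj S s).card ≤ ∑ s ∈ S, (lns adj S' s).card :=
        Finset.sum_le_sum fun s _ => lns_card_mono h s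
    _ ≤ _ := Finset.sum_le_sum_of_subset h

/-- equal directions: the same line -/
theorem onL_of_span {s r r' : V} (h : Submodule.span ℝ {r - s} = Submodule.span ℝ {r' - s}) :
    onL s r r' := by
  have h1 : r' - s ∈ Submodule.span ℝ {r - s} := h ▸ Submodule.mem_span_singleton_self _
  obtain ⟨a, ha⟩ := Submodule.mem_span_singleton.1 h1
  exact ⟨a, by rw [ha]; abel⟩

/-- the same line: equal directions -/
theorem span_of_onL {s u r : V} (hr : r ≠ s) (h : onL s u r) :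
    Submodule.span ℝ {r - s} = Submodule.span ℝ {u - s} := by
  obtain ⟨a, rfl⟩ := h
  have ha : a ≠ 0 := by
    rintro rfl
    exact hr (by simp)
  rw [add_sub_cancel_left]
  exact Submodule.span_singleton_smul_eq (IsUnit.mk0 a ha) _

open scoped Classical in
/-- pairs of a clique on poor lines: at most `k` per flag -/
theorem card_poor_le (adj : V → V → Prop) (A : Finset V)
    (hadj : ∀ s ∈ A, ∀ r ∈ A, s ≠ r → adj s r) (k : ℕ) :
    (A.offDiag.filter fun p => lineC A p.1 p.2 < k).card ≤ k * Wf adj A := by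
  rw [Finset.card_eq_sum_card_fiberwise (f := Prod.fst) (t := A)]
  swap
  · intro p hp
    have := mem_offDiag.1 (mem_filter.1 (mem_coe.1 hp)).1
    exact mem_coe.2 this.1
  unfold Wf
  rw [Finset.mul_sum]
  refine Finset.sum_le_sum fun s hs => ?_
  have h1 : ((A.offDiag.filter fun p => lineC A p.1 p.2 < k).filter fun p => p.1 = s) ⊆
      (lns adj A s).biUnion fun ℓ => ((A.filter fun r => r ≠ s ∧
        Submodule.span ℝ {r - s} = ℓ ∧ lineC A s r < k).image fun r => (s, r)) := by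
    intro p hp
    rw [mem_filter, mem_filter, mem_offDiag] at hp
    obtain ⟨⟨⟨a1, a2, a3⟩, a4⟩, rfl⟩ := hp
    rw [mem_biUnion]
    refine ⟨Submodule.span ℝ {p.2 - p.1}, mem_lns.2 ⟨p.2, a2, hadj _ a1 _ a2 a3, rfl⟩, ?_⟩
    exact mem_image.2 ⟨p.2, mem_filter.2 ⟨a2, Ne.symm a3, rfl, a4⟩, rfl⟩
  refine (card_le_card h1).trans ((card_biUnion_le_card_mul _ _ k ?_).trans (le_of_eq ?_))
  · intro ℓ hℓ
    refine card_image_le.trans ?_
    rcases (A.filter fun r => r ≠ s ∧ Submodule.span ℝ {r - s} = ℓ ∧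
      lineC A s r < k).eq_empty_or_nonempty with h0 | ⟨r₀, hr₀⟩
    · rw [h0]; simp
    · obtain ⟨b1, b2, b3, b4⟩ := mem_filter.1 hr₀
      refine le_trans ?_ b4.le
      rw [lineC_eq]
      refine card_le_card ?_
      intro r hr
      obtain ⟨c1, c2, c3, c4⟩ := mem_filter.1 hr
      exact mem_filter.2 ⟨c1, onL_of_span (b3.trans c3.symm)⟩
  · rw [mul_comm]

open scoped Classical in
/-- one clique: `3 a² ≤ 4 k₀ W + 4 (16 L + 1) a`, `k₀ = 4 * 373248` -/
theorem sq_le_Wf (adj : V → V → Prop) (A : Finset V)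
    (hadj : ∀ s ∈ A, ∀ r ∈ A, s ≠ r → adj s r) (L : ℕ)
    (hL : ∀ p ∈ A.offDiag, lineC A p.1 p.2 ≤ L) :
    3 * A.card ^ 2 ≤ 4 * (1492992 * Wf adj A) + 4 * (16 * L + 1) * A.card := by
  have h1 := card_poor_le adj A hadj 1492992
  have h2 : ((A.offDiag.filter fun p => 1492992 ≤ lineC A p.1 p.2).card : ℝ) ≤
      373248 * ((A.card : ℝ) ^ 2 / (1492992 : ℕ)) + 16 * A.card * L := by
    exact st_pairs A 1492992 L (by norm_num) hL
  have h3 : 4 * (A.offDiag.filter fun p => 1492992 ≤ lineC A p.1 p.2).card ≤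
      A.card ^ 2 + 64 * A.card * L := by
    have h4 : (4:ℝ) * ((A.offDiag.filter fun p => 1492992 ≤ lineC A p.1 p.2).card : ℝ) ≤
        (A.card : ℝ) ^ 2 + 64 * A.card * L := by
      have h5 : (373248:ℝ) * ((A.card : ℝ) ^ 2 / (1492992 : ℕ)) = (A.card : ℝ) ^ 2 / 4 := by
        push_cast; ring
      rw [h5] at h2
      linarith
    exact_mod_cast h4
  have h6 : A.offDiag.card ≤ (A.offDiag.filter fun p => lineC A p.1 p.2 < 1492992).card +
      (A.offDiag.filter fun p => 1492992 ≤ lineC A p.1 p.2).card := by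
    refine le_trans (card_le_card ?_) (card_union_le _ _)
    intro p hp
    rw [mem_union, mem_filter, mem_filter]
    rcases Nat.lt_or_ge (lineC A p.1 p.2) 1492992 with h | h
    · exact Or.inl ⟨hp, h⟩
    · exact Or.inr ⟨hp, h⟩
  have h7 : A.offDiag.card + A.card = A.card ^ 2 := by
    rw [offDiag_card, sq]
    exact Nat.sub_add_cancel (Nat.le_mul_self _)
  nlinarith [h1, h3, h6, h7]

open scoped Classical in
/-- Cauchy–Schwarz over the classes -/
theorem sq_card_le_sum_sq (S : Finset V) (f : V → C) {κ₀ : ℕ} (h : (S.image f).card ≤ κ₀) :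
    S.card ^ 2 ≤ κ₀ * ∑ c ∈ S.image f, (S.filter fun s => f s = c).card ^ 2 := by
  have h1 : S.card = ∑ c ∈ S.image f, (S.filter fun s => f s = c).card :=
    Finset.card_eq_sum_card_image f S
  calc S.card ^ 2 = (∑ c ∈ S.image f, (S.filter fun s => f s = c).card) ^ 2 := by rw [← h1]
    _ ≤ (S.image f).card * ∑ c ∈ S.image f, (S.filter fun s => f s = c).card ^ 2 :=
        sq_sum_le_card_mul_sum_sq
    _ ≤ _ := Nat.mul_le_mul_right _ h

open scoped Classical in
/-- `∑ c, Wf (S_c)` as a sum over the points -/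
theorem sum_Wf_classes (adj : V → V → Prop) (S : Finset V) (cl : V → C) :
    ∑ c ∈ S.image cl, Wf adj (S.filter fun s => cl s = c) =
      ∑ s ∈ S, (lns adj (S.filter fun r => cl r = cl s) s).card := by
  rw [← Finset.sum_fiberwise_of_maps_to (s := S) (t := S.image cl) (g := cl)
    (fun s hs => mem_image_of_mem cl hs)]
  refine Finset.sum_congr rfl fun c _ => ?_
  unfold Wf
  refine Finset.sum_congr rfl fun s hs => ?_
  rw [(mem_filter.1 hs).2]

open scoped Classical in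
/-- **flags in the flats**: at most the same-class flags of `S` plus the shared ones -/
theorem sum_flags_le (adj : V → V → Prop) (𝓕 : Finset κ) (SF : κ → Finset V) (S : Finset V)
    (hS : ∀ F ∈ 𝓕, SF F ⊆ S) (cl : V → C) (m : κ → V → ℕ)
    (hsh : ∀ F ∈ 𝓕, ∀ s ∈ SF F, ((lns adj (SF F) s).filter fun ℓ =>
      ∃ F' ∈ 𝓕, F' ≠ F ∧ s ∈ SF F' ∧ ℓ ∈ lns adj (SF F') s).card ≤ m F s) :
    ∑ F ∈ 𝓕, ∑ s ∈ SF F, (lns adj ((SF F).filter fun r => cl r = cl s) s).card ≤
      ∑ s ∈ S, (lns adj (S.filter fun r => cl r = cl s) s).card + ∑ F ∈ 𝓕, ∑ s ∈ SF F, m F s := by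
  -- swap the sums
  have hswap : ∀ f : κ → V → ℕ, ∑ F ∈ 𝓕, ∑ s ∈ SF F, f F s =
      ∑ s ∈ S, ∑ F ∈ 𝓕.filter (fun F => s ∈ SF F), f F s := by
    intro f
    refine Finset.sum_comm' ?_
    intro F s
    rw [mem_filter]
    constructor
    · rintro ⟨h1, h2⟩
      exact ⟨⟨h1, h2⟩, hS F h1 h2⟩
    · rintro ⟨⟨h1, h2⟩, -⟩
      exact ⟨h1, h2⟩
  rw [hswap, hswap, ← Finset.sum_add_distrib]
  refine Finset.sum_le_sum fun s hs => ?_
  set sh : κ → Submodule ℝ V → Prop := fun F ℓ =>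
    ∃ F' ∈ 𝓕, F' ≠ F ∧ s ∈ SF F' ∧ ℓ ∈ lns adj (SF F') s with hsh'
  set U : κ → Finset (Submodule ℝ V) := fun F =>
    (lns adj ((SF F).filter fun r => cl r = cl s) s).filter fun ℓ => ¬ sh F ℓ with hU
  have h1 : ∀ F ∈ 𝓕.filter (fun F => s ∈ SF F),
      (lns adj ((SF F).filter fun r => cl r = cl s) s).card ≤ (U F).card + m F s := by
    intro F hF
    rw [mem_filter] at hF
    have h2 : lns adj ((SF F).filter fun r => cl r = cl s) s ⊆
        U F ∪ (lns adj (SF F) s).filter fun ℓ => sh F ℓ := by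
      intro ℓ hℓ
      rw [mem_union]
      by_cases h3 : sh F ℓ
      · exact Or.inr (mem_filter.2 ⟨lns_mono (filter_subset _ _) s hℓ, h3⟩)
      · exact Or.inl (mem_filter.2 ⟨hℓ, h3⟩)
    refine (card_le_card h2).trans ((card_union_le _ _).trans ?_)
    exact Nat.add_le_add_left (hsh F hF.1 s hF.2) _
  refine (Finset.sum_le_sum h1).trans ?_
  rw [Finset.sum_add_distrib]
  refine Nat.add_le_add_right ?_ _
  have hdisj : ((𝓕.filter fun F => s ∈ SF F : Finset κ) : Set κ).PairwiseDisjoint U := by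
    intro F hF F' hF' hne
    rw [Function.onFun, Finset.disjoint_left]
    intro ℓ h3 h4
    rw [mem_coe, mem_filter] at hF hF'
    have h5 := (mem_filter.1 h3).2
    exact h5 ⟨F', hF'.1, hne.symm, hF'.2, lns_mono (filter_subset _ _) s (mem_filter.1 h4).1⟩
  rw [← card_biUnion hdisj]
  refine card_le_card ?_
  intro ℓ hℓ
  obtain ⟨F, hF, h3⟩ := mem_biUnion.1 hℓ
  rw [mem_filter] at hF
  exact lns_mono (filter_subset_filter _ (hS F hF.1)) s (mem_filter.1 h3).1

open scoped Classical in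
/-- **count in flats with cells, flag version** -/
theorem cntW (adj : V → V → Prop) (𝓕 : Finset κ) (SF : κ → Finset V) (S : Finset V)
    (hS : ∀ F ∈ 𝓕, SF F ⊆ S) (hadj : ∀ F ∈ 𝓕, ∀ s ∈ SF F, ∀ r ∈ SF F, s ≠ r → adj s r)
    (cl : V → C) (κ₀ : ℕ) (hcl : ∀ F ∈ 𝓕, ((SF F).image cl).card ≤ κ₀)
    (L : ℕ) (hL : ∀ F ∈ 𝓕, ∀ p ∈ (SF F).offDiag, lineC (SF F) p.1 p.2 ≤ L)
    (m : κ → V → ℕ)
    (hsh : ∀ F ∈ 𝓕, ∀ s ∈ SF F, ((lns adj (SF F) s).filter fun ℓ =>
      ∃ F' ∈ 𝓕, F' ≠ F ∧ s ∈ SF F' ∧ ℓ ∈ lns adj (SF F') s).card ≤ m F s) :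
    ∑ F ∈ 𝓕, (SF F).card ^ 2 ≤ 1990656 * κ₀ *
      (∑ c ∈ S.image cl, Wf adj (S.filter fun s => cl s = c) +
        ∑ F ∈ 𝓕, ∑ s ∈ SF F, (m F s + L + 1)) := by
  -- one flat
  have hone : ∀ F ∈ 𝓕, 3 * (SF F).card ^ 2 ≤ κ₀ * (4 * (1492992 *
      ∑ s ∈ SF F, (lns adj ((SF F).filter fun r => cl r = cl s) s).card) +
      4 * (16 * L + 1) * (SF F).card) := by
    intro F hF
    have h1 := sq_card_le_sum_sq (SF F) cl (hcl F hF)
    have h2 : ∀ c ∈ (SF F).image cl, 3 * ((SF F).filter fun s => cl s = c).card ^ 2 ≤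
        4 * (1492992 * Wf adj ((SF F).filter fun s => cl s = c)) +
          4 * (16 * L + 1) * ((SF F).filter fun s => cl s = c).card := by
      intro c _
      refine sq_le_Wf adj _ ?_ L ?_
      · intro s hs r hr hne
        exact hadj F hF s (mem_filter.1 hs).1 r (mem_filter.1 hr).1 hne
      · intro p hp
        rw [mem_offDiag] at hp
        have h3 := hL F hF p (mem_offDiag.2 ⟨(mem_filter.1 hp.1).1, (mem_filter.1 hp.2.1).1, hp.2.2⟩)
        refine le_trans ?_ h3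
        rw [lineC_eq, lineC_eq]
        exact card_le_card (filter_subset_filter _ (filter_subset _ _))
    have h3 := Finset.sum_le_sum h2
    rw [← Finset.mul_sum, Finset.sum_add_distrib, ← Finset.mul_sum, ← Finset.mul_sum,
      ← Finset.mul_sum, sum_Wf_classes, ← Finset.card_eq_sum_card_image cl (SF F)] at h3
    calc 3 * (SF F).card ^ 2
        ≤ 3 * (κ₀ * ∑ c ∈ (SF F).image cl, ((SF F).filter fun s => cl s = c).card ^ 2) :=
          Nat.mul_le_mul_left _ h1
      _ = κ₀ * (3 * ∑ c ∈ (SF F).image cl, ((SF F).filter fun s => cl s = c).card ^ 2) := by ring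
      _ ≤ _ := Nat.mul_le_mul_left _ h3
  have hsum := Finset.sum_le_sum hone
  rw [← Finset.mul_sum, ← Finset.mul_sum, Finset.sum_add_distrib, ← Finset.mul_sum,
    ← Finset.mul_sum, ← Finset.mul_sum] at hsum
  have hfl := sum_flags_le adj 𝓕 SF S hS cl m hsh
  rw [← sum_Wf_classes] at hfl
  have hcard : ∑ F ∈ 𝓕, (SF F).card = ∑ F ∈ 𝓕, ∑ s ∈ SF F, 1 := by
    refine Finset.sum_congr rfl fun F _ => ?_
    rw [Finset.card_eq_sum_ones]
  have hsplit : ∑ F ∈ 𝓕, ∑ s ∈ SF F, (m F s + L + 1) =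
      ∑ F ∈ 𝓕, ∑ s ∈ SF F, m F s + (L + 1) * ∑ F ∈ 𝓕, (SF F).card := by
    rw [Finset.mul_sum, ← Finset.sum_add_distrib]
    refine Finset.sum_congr rfl fun F _ => ?_
    rw [Finset.card_eq_sum_ones, Finset.mul_sum, ← Finset.sum_add_distrib]
    refine Finset.sum_congr rfl fun s _ => ?_
    ring
  rw [hsplit]
  set X := ∑ F ∈ 𝓕, (SF F).card ^ 2 with hX
  set Y := ∑ F ∈ 𝓕, ∑ s ∈ SF F, (lns adj ((SF F).filter fun r => cl r = cl s) s).card with hY
  set Z := ∑ F ∈ 𝓕, (SF F).card with hZ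
  set Q := ∑ c ∈ S.image cl, Wf adj (S.filter fun s => cl s = c) with hQ
  set R := ∑ F ∈ 𝓕, ∑ s ∈ SF F, m F s with hR
  have h4 : 3 * X ≤ 3 * (1990656 * κ₀ * (Q + (R + (L + 1) * Z))) := by
    calc 3 * X ≤ κ₀ * (4 * (1492992 * Y) + 4 * (16 * L + 1) * Z) := hsum
      _ ≤ κ₀ * (4 * (1492992 * (Q + R)) + 4 * (1492992 * (L + 1)) * Z) := by
          have h5 : 16 * L + 1 ≤ 1492992 * (L + 1) := by omega
          gcongr
      _ = _ := by ring
  exact Nat.le_of_mul_le_mul_left h4 (by norm_num)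

end Vale.Agent.P054.T3.H197
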