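import Vale.Agent.P054.T3.H637.D3Det

set_option autoImplicit false
set_option linter.all false

/-!
# P054 / T3, d = 3: two graphs of isometries of the same orientation meet in a line

`g1`: if `Φ ≠ Ψ` are linear isometries of a 3-dimensional space with the same determinant, the
common points of their graphs through `s` lie on one line through `s`.
-/

namespace Vale.Agent.P054.T3.H197

open Module Submodule
open Vale.Agent.P054.T3.H637

section General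

variable {F : Type*} [NormedAddCommGroup F] [InnerProductSpace ℝ F] [FiniteDimensional ℝ F]

/-- the values on which two linear isometries agree: the fixed space of `Ψ⁻¹ Φ` -/
theorem mem_fixS_of_eq {Φ Ψ : F ≃ₗᵢ[ℝ] F} {v : F} (h : Φ v = Ψ v) : v ∈ fixS (Ψ⁻¹ * Φ) := by
  rw [mem_fixS]
  change Ψ.symm (Φ v) = v
  rw [h]
  exact Ψ.symm_apply_apply v

theorem dt_inv_mul {Φ Ψ : F ≃ₗᵢ[ℝ] F} (h : dt Φ = dt Ψ) : dt (Ψ⁻¹ * Φ) = 1 := by
  have h1 : dt (Ψ⁻¹ * Ψ) = 1 := by rw [inv_mul_cancel]; exact dt_one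
  rw [dt_mul] at h1 ⊢
  rw [h, h1]

/-- two different linear isometries of a 3-dimensional space with the same determinant agree on a
space of dimension at most one -/
theorem finrank_fixS_le (h3 : finrank ℝ F = 3) {Φ Ψ : F ≃ₗᵢ[ℝ] F} (h : dt Φ = dt Ψ)
    (hne : Φ ≠ Ψ) : finrank ℝ (fixS (Ψ⁻¹ * Φ)) ≤ 1 := by
  have h1 := dt_inv_mul h
  rw [dt_of_fix, h3] at h1
  have hle : finrank ℝ (fixS (Ψ⁻¹ * Φ)) ≤ 3 := h3 ▸ (fixS (Ψ⁻¹ * Φ)).finrank_le
  by_contra hcon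
  have h2 : finrank ℝ (fixS (Ψ⁻¹ * Φ)) = 2 ∨ finrank ℝ (fixS (Ψ⁻¹ * Φ)) = 3 := by omega
  rcases h2 with h2 | h2
  · rw [h2] at h1
    norm_num at h1
  · have h4 : fixS (Ψ⁻¹ * Φ) = ⊤ := Submodule.eq_top_of_finrank_eq (h2.trans h3.symm)
    apply hne
    ext v
    have h5 : v ∈ fixS (Ψ⁻¹ * Φ) := h4 ▸ Submodule.mem_top
    rw [mem_fixS] at h5
    have h6 : Ψ.symm (Φ v) = v := h5
    calc Φ v = Ψ (Ψ.symm (Φ v)) := (Ψ.apply_symm_apply _).symm
      _ = Ψ v := by rw [h6]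

/-- **(g1)** two graphs of the same orientation through `s` meet in a line through `s` -/
theorem g1 (h3 : finrank ℝ F = 3) {Φ Ψ : F ≃ₗᵢ[ℝ] F} (h : dt Φ = dt Ψ) (hne : Φ ≠ Ψ) :
    ∃ v : F, ∀ s r : F × F, r.1 - s.1 = Φ (r.2 - s.2) → r.1 - s.1 = Ψ (r.2 - s.2) →
      ∃ a : ℝ, r - s = a • ((Φ v, v) : F × F) := by
  obtain ⟨v, hv⟩ := finrank_le_one_iff.1 (finrank_fixS_le h3 h hne)
  refine ⟨(v : F), ?_⟩
  intro s r h1 h2
  have h4 : r.2 - s.2 ∈ fixS (Ψ⁻¹ * Φ) := mem_fixS_of_eq (h1.symm.trans h2)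
  obtain ⟨a, ha⟩ := hv ⟨_, h4⟩
  have h5 : r.2 - s.2 = a • (v : F) := by
    have := congrArg Subtype.val ha
    simpa using this.symm
  refine ⟨a, ?_⟩
  refine Prod.ext ?_ ?_
  · change r.1 - s.1 = a • Φ (v : F)
    rw [h1, h5, map_smul]
  · exact h5

end General

end Vale.Agent.P054.T3.H197
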