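import Vale.Agent.P054.T3.H197.Flags

set_option autoImplicit false
set_option linter.all false

/-!
# P054 / T3 / H197: the near-step in an abstract form (flags)

`inc`: pairwise almost disjoint large sets.
`near`: the local threshold form; `near_all`: all traces with at least `M` points.
-/

namespace Vale.Agent.P054.T3.H197

open Finset
open Vale.Agent.P054.T3.H109.Gen (onL lineC st_pairs lineC_eq)

section Inc

variable {α ι : Type*}

open scoped Classical in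
/-- **incidences**: large subsets with small pairwise intersections -/
theorem inc (I : Finset ι) (T : ι → Finset α) (E : Finset α) (hT : ∀ i ∈ I, T i ⊆ E)
    (k M : ℕ) (hM : ∀ i ∈ I, M ≤ (T i).card)
    (hk : ∀ i ∈ I, ∀ j ∈ I, i ≠ j → (T i ∩ T j).card ≤ k) (h : 4 * k * E.card ≤ M ^ 2) :
    3 * ∑ i ∈ I, (T i).card ≤ 4 * E.card := by
  set d : α → ℕ := fun x => (I.filter fun i => x ∈ T i).card with hd
  set A := ∑ i ∈ I, (T i).card with hA
  have h1 : A = ∑ x ∈ E, d x := by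
    rw [hA]
    simp only [hd, Finset.card_eq_sum_ones]
    refine Finset.sum_comm' ?_
    intro i x
    rw [mem_filter]
    exact ⟨fun h => ⟨⟨h.1, h.2⟩, hT i h.1 h.2⟩, fun h => ⟨h.1.1, h.1.2⟩⟩
  have h2 : ∑ x ∈ E, d x ^ 2 = ∑ i ∈ I, ∑ j ∈ I, (T i ∩ T j).card := by
    have h3 : ∀ x, d x ^ 2 = ((I ×ˢ I).filter fun p => x ∈ T p.1 ∧ x ∈ T p.2).card := by
      intro x
      rw [sq, hd, ← card_product]
      congr 1
      ext p
      simp only [mem_product, mem_filter]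
      tauto
    rw [Finset.sum_congr rfl fun x _ => h3 x, ← Finset.sum_product' (s := I) (t := I)
      (f := fun i j => (T i ∩ T j).card)]
    simp only [Finset.card_eq_sum_ones]
    refine Finset.sum_comm' ?_
    intro x p
    rw [mem_filter, mem_inter, mem_product]
    constructor
    · rintro ⟨a, ⟨b1, b2⟩, c1, c2⟩
      exact ⟨⟨c1, c2⟩, b1, b2⟩
    · rintro ⟨⟨c1, c2⟩, b1, b2⟩
      exact ⟨hT _ b1 c1, ⟨b1, b2⟩, c1, c2⟩
  have h4 : ∑ i ∈ I, ∑ j ∈ I, (T i ∩ T j).card ≤ A + k * I.card ^ 2 := by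
    have h5 : ∀ i ∈ I, ∑ j ∈ I, (T i ∩ T j).card ≤ (T i).card + k * I.card := by
      intro i hi
      calc ∑ j ∈ I, (T i ∩ T j).card ≤ ∑ j ∈ I, ((if i = j then (T i).card else 0) + k) := by
            refine Finset.sum_le_sum fun j hj => ?_
            by_cases hij : i = j
            · rw [if_pos hij]
              exact (card_le_card inter_subset_left).trans (Nat.le_add_right _ _)
            · rw [if_neg hij, zero_add]
              exact hk i hi j hj hij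
        _ = _ := by
            rw [Finset.sum_add_distrib, Finset.sum_ite_eq, if_pos hi, Finset.sum_const,
              smul_eq_mul, mul_comm k]
    refine (Finset.sum_le_sum h5).trans (le_of_eq ?_)
    rw [Finset.sum_add_distrib, Finset.sum_const, smul_eq_mul, ← hA]
    ring
  have h6 : A ^ 2 ≤ E.card * (A + k * I.card ^ 2) := by
    calc A ^ 2 = (∑ x ∈ E, d x) ^ 2 := by rw [h1]
      _ ≤ E.card * ∑ x ∈ E, d x ^ 2 := sq_sum_le_card_mul_sum_sq
      _ ≤ _ := Nat.mul_le_mul_left _ (by rw [h2]; exact h4)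
  have h7 : I.card * M ≤ A := by
    rw [hA, ← smul_eq_mul]
    exact Finset.card_nsmul_le_sum _ _ _ hM
  have h8 : 3 * A * A ≤ 4 * E.card * A := by
    have h9 : M ^ 2 * I.card ^ 2 ≤ A ^ 2 := by
      calc M ^ 2 * I.card ^ 2 = (I.card * M) ^ 2 := by ring
        _ ≤ A ^ 2 := Nat.pow_le_pow_left h7 2
    have h10 : 4 * k * E.card * I.card ^ 2 ≤ M ^ 2 * I.card ^ 2 := Nat.mul_le_mul_right _ h
    nlinarith [h6, h9, h10]
  rcases Nat.eq_zero_or_pos A with h0 | h0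
  · rw [h0]; omega
  · exact Nat.le_of_mul_le_mul_right h8 h0

end Inc

variable {V κ C : Type*} [AddCommGroup V] [Module ℝ V]

open scoped Classical in
/-- the part of the trace `A` where many flags lie in `A` -/
noncomputable def SFl (adj : V → V → Prop) (Ms : V → ℕ) (A : Finset V) : Finset V :=
  A.filter fun s => Ms s ≤ (lns adj A s).card

theorem SFl_subset (adj : V → V → Prop) (Ms : V → ℕ) (A : Finset V) : SFl adj Ms A ⊆ A :=
  filter_subset _ _

theorem mem_SFl {adj : V → V → Prop} {Ms : V → ℕ} {A : Finset V} {s : V} :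
    s ∈ SFl adj Ms A ↔ s ∈ A ∧ Ms s ≤ (lns adj A s).card := by
  classical
  unfold SFl
  rw [mem_filter]

open scoped Classical in
/-- the number of rich traces at `s` -/
noncomputable def Lf (adj : V → V → Prop) (Ms : V → ℕ) (𝓕 : Finset (Finset V)) (s : V) : ℕ :=
  (𝓕.filter fun A => s ∈ SFl adj Ms A).card

open scoped Classical in
/-- `L_s M_s ≤ (4/3) D_s` -/
theorem Lf_mul_le (adj : V → V → Prop) (Ms : V → ℕ) (𝓕 : Finset (Finset V)) (S : Finset V)
    (hS : ∀ A ∈ 𝓕, A ⊆ S) (s : V)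
    (hline : ∀ A ∈ 𝓕, ∀ B ∈ 𝓕, A ≠ B → s ∈ A → s ∈ B → (lns adj A s ∩ lns adj B s).card ≤ 1)
    (h : 4 * (lns adj S s).card ≤ Ms s ^ 2) :
    3 * (Lf adj Ms 𝓕 s * Ms s) ≤ 4 * (lns adj S s).card := by
  have h1 := inc (𝓕.filter fun A => s ∈ SFl adj Ms A) (fun A => lns adj A s) (lns adj S s)
    (fun A hA => lns_mono (hS A (mem_filter.1 hA).1) s) 1 (Ms s)
    (fun A hA => (mem_SFl.1 (mem_filter.1 hA).2).2)
    (fun A hA B hB hne => hline A (mem_filter.1 hA).1 B (mem_filter.1 hB).1 hne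
      (mem_SFl.1 (mem_filter.1 hA).2).1 (mem_SFl.1 (mem_filter.1 hB).2).1)
    (by rw [mul_one]; exact h)
  refine le_trans (Nat.mul_le_mul_left _ ?_) h1
  unfold Lf
  rw [← smul_eq_mul]
  exact Finset.card_nsmul_le_sum _ _ _ fun A hA => (mem_SFl.1 (mem_filter.1 hA).2).2

open scoped Classical in
/-- shared lines: at most one for every other trace -/
theorem shared_le (adj : V → V → Prop) (Ms : V → ℕ) (𝓕 : Finset (Finset V))
    (hline : ∀ A ∈ 𝓕, ∀ B ∈ 𝓕, A ≠ B → ∀ s ∈ A, s ∈ B → (lns adj A s ∩ lns adj B s).card ≤ 1)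
    {A : Finset V} (hA : A ∈ 𝓕) {s : V} (hs : s ∈ SFl adj Ms A) :
    ((lns adj (SFl adj Ms A) s).filter fun ℓ => ∃ B ∈ 𝓕, B ≠ A ∧ s ∈ SFl adj Ms B ∧
      ℓ ∈ lns adj (SFl adj Ms B) s).card ≤ Lf adj Ms 𝓕 s := by
  have h1 : ((lns adj (SFl adj Ms A) s).filter fun ℓ => ∃ B ∈ 𝓕, B ≠ A ∧ s ∈ SFl adj Ms B ∧
      ℓ ∈ lns adj (SFl adj Ms B) s) ⊆
      ((𝓕.filter fun B => s ∈ SFl adj Ms B).filter fun B => B ≠ A).biUnion
        fun B => lns adj A s ∩ lns adj B s := by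
    intro ℓ hℓ
    obtain ⟨h2, B, hB, hne, hsB, hℓB⟩ := mem_filter.1 hℓ
    rw [mem_biUnion]
    refine ⟨B, mem_filter.2 ⟨mem_filter.2 ⟨hB, hsB⟩, hne⟩, mem_inter.2 ⟨?_, ?_⟩⟩
    · exact lns_mono (SFl_subset _ _ _) s h2
    · exact lns_mono (SFl_subset _ _ _) s hℓB
  refine (card_le_card h1).trans ((card_biUnion_le_card_mul _ _ 1 ?_).trans ?_)
  · intro B hB
    obtain ⟨h2, h3⟩ := mem_filter.1 hB
    obtain ⟨h4, h5⟩ := mem_filter.1 h2
    exact hline A hA B h4 h3.symm s (mem_SFl.1 hs).1 (mem_SFl.1 h5).1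
  · rw [mul_one]
    exact card_le_card (filter_subset _ _)

open scoped Classical in
/-- **near-step, first form** -/
theorem near_sum (adj : V → V → Prop) (Ms : V → ℕ) (𝓕 : Finset (Finset V)) (S : Finset V)
    (hS : ∀ A ∈ 𝓕, A ⊆ S) (hadj : ∀ A ∈ 𝓕, ∀ s ∈ A, ∀ r ∈ A, s ≠ r → adj s r)
    (hline : ∀ A ∈ 𝓕, ∀ B ∈ 𝓕, A ≠ B → ∀ s ∈ A, s ∈ B → (lns adj A s ∩ lns adj B s).card ≤ 1)
    (cl : V → C) (κ₀ : ℕ) (hcl : ∀ A ∈ 𝓕, (A.image cl).card ≤ κ₀)
    (L : ℕ) (hL : ∀ A ∈ 𝓕, ∀ p ∈ A.offDiag, lineC A p.1 p.2 ≤ L) :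
    ∑ A ∈ 𝓕, (SFl adj Ms A).card ^ 2 ≤ 1990656 * κ₀ *
      (∑ c ∈ S.image cl, Wf adj (S.filter fun s => cl s = c) +
        ∑ s ∈ S, Lf adj Ms 𝓕 s * (Lf adj Ms 𝓕 s + L + 1)) := by
  have h1 := cntW adj 𝓕 (fun A => SFl adj Ms A) S (fun A hA => (SFl_subset _ _ _).trans (hS A hA))
    (fun A hA s hs r hr hne => hadj A hA s (SFl_subset _ _ _ hs) r (SFl_subset _ _ _ hr) hne)
    cl κ₀ (fun A hA => (card_le_card (image_subset_image (SFl_subset _ _ _))).trans (hcl A hA))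
    L (fun A hA p hp => by
      rw [mem_offDiag] at hp
      refine le_trans ?_ (hL A hA p (mem_offDiag.2 ⟨SFl_subset _ _ _ hp.1,
        SFl_subset _ _ _ hp.2.1, hp.2.2⟩))
      rw [lineC_eq, lineC_eq]
      exact card_le_card (filter_subset_filter _ (SFl_subset _ _ _)))
    (fun _ s => Lf adj Ms 𝓕 s) (by
      intro A hA s hs
      refine le_trans (le_of_eq ?_) (shared_le adj Ms 𝓕 hline hA hs)
      congr 1
      ext ℓ
      simp only [Finset.mem_filter])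
  refine h1.trans (Nat.mul_le_mul_left _ (Nat.add_le_add_left (le_of_eq ?_) _))
  have hswap : ∑ A ∈ 𝓕, ∑ s ∈ SFl adj Ms A, (Lf adj Ms 𝓕 s + L + 1) =
      ∑ s ∈ S, ∑ A ∈ 𝓕.filter (fun A => s ∈ SFl adj Ms A), (Lf adj Ms 𝓕 s + L + 1) := by
    refine Finset.sum_comm' ?_
    intro A s
    rw [mem_filter]
    constructor
    · rintro ⟨h1, h2⟩
      exact ⟨⟨h1, h2⟩, hS A h1 (SFl_subset _ _ _ h2)⟩
    · rintro ⟨⟨h1, h2⟩, -⟩
      exact ⟨h1, h2⟩
  rw [hswap]
  refine Finset.sum_congr rfl fun s _ => ?_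
  rw [Finset.sum_const, smul_eq_mul]
  rfl

open scoped Classical in
/-- **NEAR, local threshold** -/
theorem near (adj : V → V → Prop) (Ms : V → ℕ) (𝓕 : Finset (Finset V)) (S : Finset V)
    (hS : ∀ A ∈ 𝓕, A ⊆ S) (hadj : ∀ A ∈ 𝓕, ∀ s ∈ A, ∀ r ∈ A, s ≠ r → adj s r)
    (hline : ∀ A ∈ 𝓕, ∀ B ∈ 𝓕, A ≠ B → ∀ s ∈ A, s ∈ B → (lns adj A s ∩ lns adj B s).card ≤ 1)
    (cl : V → C) (κ₀ : ℕ) (hcl : ∀ A ∈ 𝓕, (A.image cl).card ≤ κ₀)
    (L : ℕ) (hL : ∀ A ∈ 𝓕, ∀ p ∈ A.offDiag, lineC A p.1 p.2 ≤ L)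
    (c₀ M : ℕ) (hc₀ : 1 ≤ c₀) (hM1 : 1 ≤ M) (hM : ∀ s ∈ S, M ≤ Ms s)
    (hMs : ∀ s ∈ S, 4 * c₀ * (lns adj S s).card ≤ Ms s ^ 2) :
    ∑ A ∈ 𝓕, ((SFl adj Ms A).card : ℝ) ^ 2 ≤ 1990656 * κ₀ *
      (∑ c ∈ S.image cl, (Wf adj (S.filter fun s => cl s = c) : ℝ) +
        (1 / c₀ + 2 * (L + 1) / M) * Wf adj S) := by
  have h1 := near_sum adj Ms 𝓕 S hS hadj hline cl κ₀ hcl L hL
  have h2 : (∑ A ∈ 𝓕, ((SFl adj Ms A).card : ℝ) ^ 2) ≤ 1990656 * κ₀ *
      (∑ c ∈ S.image cl, (Wf adj (S.filter fun s => cl s = c) : ℝ) +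
        ∑ s ∈ S, (Lf adj Ms 𝓕 s : ℝ) * (Lf adj Ms 𝓕 s + L + 1)) := by
    have h2 := (Nat.cast_le (α := ℝ)).2 h1
    simp only [Nat.cast_sum, Nat.cast_mul, Nat.cast_add, Nat.cast_pow, Nat.cast_one,
      Nat.cast_ofNat] at h2
    exact h2
  refine h2.trans (mul_le_mul_of_nonneg_left ?_ (by positivity))
  refine add_le_add_right ?_ _
  have hc0 : (0:ℝ) < c₀ := by exact_mod_cast hc₀
  have hM0 : (0:ℝ) < M := by exact_mod_cast hM1
  have h3 : ∀ s ∈ S, (Lf adj Ms 𝓕 s : ℝ) * (Lf adj Ms 𝓕 s + L + 1) ≤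
      (1 / c₀ + 2 * (L + 1) / M) * (lns adj S s).card := by
    intro s hs
    have h4 := Lf_mul_le adj Ms 𝓕 S hS s (fun A hA B hB hne h1 h2 => hline A hA B hB hne s h1 h2)
      (le_trans (Nat.mul_le_mul_right _ (by omega)) (hMs s hs))
    set l := Lf adj Ms 𝓕 s with hl
    set D := (lns adj S s).card with hD
    have h5 := hMs s hs
    have h6 := hM s hs
    have h7 : M * l ≤ 2 * D := by
      have : M * l ≤ l * Ms s := by rw [mul_comm]; exact Nat.mul_le_mul_left _ h6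
      omega
    have h8 : c₀ * l ^ 2 ≤ D := by
      rcases Nat.eq_zero_or_pos D with h0 | h0
      · have h9 : M * l ≤ 0 := by rw [h0] at h7; exact h7
        have h10 : l = 0 := by
          rcases Nat.eq_zero_or_pos l with h | h
          · exact h
          · have := Nat.mul_pos hM1 h
            omega
        rw [h10]; simp
      · have h9 : 9 * (l ^ 2 * Ms s ^ 2) ≤ 16 * D ^ 2 := by
          calc 9 * (l ^ 2 * Ms s ^ 2) = (3 * (l * Ms s)) ^ 2 := by ring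
            _ ≤ (4 * D) ^ 2 := Nat.pow_le_pow_left h4 2
            _ = _ := by ring
        have h10 : 9 * (l ^ 2 * (4 * c₀ * D)) ≤ 16 * D ^ 2 :=
          le_trans (Nat.mul_le_mul_left _ (Nat.mul_le_mul_left _ h5)) h9
        have h11 : (9 * (c₀ * l ^ 2)) * (4 * D) ≤ (4 * D) * (4 * D) := by
          calc (9 * (c₀ * l ^ 2)) * (4 * D) = 9 * (l ^ 2 * (4 * c₀ * D)) := by ring
            _ ≤ 16 * D ^ 2 := h10
            _ = _ := by ring
        have h12 := Nat.le_of_mul_le_mul_right h11 (by omega)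
        omega
    have h7' : (M : ℝ) * l ≤ 2 * D := by exact_mod_cast h7
    have h8' : (c₀ : ℝ) * (l : ℝ) ^ 2 ≤ D := by exact_mod_cast h8
    have h9 : (l : ℝ) ^ 2 ≤ 1 / c₀ * D := by
      rw [div_mul_eq_mul_div, one_mul, le_div_iff₀ hc0]
      linarith
    have h10 : (l : ℝ) ≤ 2 / M * D := by
      rw [div_mul_eq_mul_div, le_div_iff₀ hM0]
      linarith
    have hL0 : (0:ℝ) ≤ L + 1 := by positivity
    calc (l : ℝ) * (l + L + 1) = (l : ℝ) ^ 2 + (L + 1) * l := by ring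
      _ ≤ 1 / c₀ * D + (L + 1) * (2 / M * D) := by gcongr
      _ = _ := by ring
  calc ∑ s ∈ S, (Lf adj Ms 𝓕 s : ℝ) * (Lf adj Ms 𝓕 s + L + 1)
      ≤ ∑ s ∈ S, (1 / c₀ + 2 * (L + 1) / M) * ((lns adj S s).card : ℝ) := Finset.sum_le_sum h3
    _ = _ := by
        rw [← Finset.mul_sum]
        unfold Wf
        push_cast
        rfl

open scoped Classical in
/-- pairs of a clique on poor lines at one point -/
theorem card_poor_one (adj : V → V → Prop) (A : Finset V)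
    (hadj : ∀ s ∈ A, ∀ r ∈ A, s ≠ r → adj s r) (k : ℕ) {s : V} (hs : s ∈ A) :
    (A.filter fun r => r ≠ s ∧ lineC A s r < k).card ≤ k * (lns adj A s).card := by
  have h1 : (A.filter fun r => r ≠ s ∧ lineC A s r < k) ⊆
      (lns adj A s).biUnion fun ℓ => A.filter fun r => r ≠ s ∧
        Submodule.span ℝ {r - s} = ℓ ∧ lineC A s r < k := by
    intro r hr
    obtain ⟨a1, a2, a3⟩ := mem_filter.1 hr
    rw [mem_biUnion]
    exact ⟨Submodule.span ℝ {r - s}, mem_lns.2 ⟨r, a1, hadj _ hs _ a1 a2.symm, rfl⟩,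
      mem_filter.2 ⟨a1, a2, rfl, a3⟩⟩
  refine (card_le_card h1).trans ((card_biUnion_le_card_mul _ _ k ?_).trans
    (le_of_eq (mul_comm _ _)))
  intro ℓ hℓ
  rcases (A.filter fun r => r ≠ s ∧ Submodule.span ℝ {r - s} = ℓ ∧
    lineC A s r < k).eq_empty_or_nonempty with h0 | ⟨r₀, hr₀⟩
  · rw [h0]; simp
  · obtain ⟨b1, b2, b3, b4⟩ := mem_filter.1 hr₀
    refine le_trans ?_ b4.le
    rw [lineC_eq]
    refine card_le_card ?_
    intro r hr
    obtain ⟨c1, c2, c3, c4⟩ := mem_filter.1 hr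
    exact mem_filter.2 ⟨c1, onL_of_span (b3.trans c3.symm)⟩

open scoped Classical in
/-- **the good part**: at least one half of the points of a large clique have many flags in it -/
theorem card_le_two_good (adj : V → V → Prop) (A : Finset V)
    (hadj : ∀ s ∈ A, ∀ r ∈ A, s ≠ r → adj s r) (L : ℕ)
    (hL : ∀ p ∈ A.offDiag, lineC A p.1 p.2 ≤ L) (hbig : 8 * (16 * L + 1) ≤ A.card) :
    A.card ≤ 2 * (A.filter fun s => A.card ≤ 5971968 * (lns adj A s).card).card := by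
  set a := A.card with ha
  set G := A.filter fun s => a ≤ 5971968 * (lns adj A s).card with hG
  have h2 : ((A.offDiag.filter fun p => 1492992 ≤ lineC A p.1 p.2).card : ℝ) ≤
      373248 * ((A.card : ℝ) ^ 2 / (1492992 : ℕ)) + 16 * A.card * L := by
    exact st_pairs A 1492992 L (by norm_num) hL
  have h3 : 4 * (A.offDiag.filter fun p => 1492992 ≤ lineC A p.1 p.2).card ≤
      A.card ^ 2 + 64 * A.card * L := by
    have h4 : (4:ℝ) * ((A.offDiag.filter fun p => 1492992 ≤ lineC A p.1 p.2).card : ℝ) ≤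
        (A.card : ℝ) ^ 2 + 64 * A.card * L := by
      have h5 : (373248:ℝ) * ((A.card : ℝ) ^ 2 / (1492992 : ℕ)) = (A.card : ℝ) ^ 2 / 4 := by
        push_cast; ring
      rw [h5] at h2
      linarith
    exact_mod_cast h4
  have h6 : A.offDiag.card ≤ (A.offDiag.filter fun p => lineC A p.1 p.2 < 1492992).card +
      (A.offDiag.filter fun p => 1492992 ≤ lineC A p.1 p.2).card := by
    refine le_trans (card_le_card ?_) (card_union_le _ _)
    intro p hp
    rw [mem_union, mem_filter, mem_filter]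
    rcases Nat.lt_or_ge (lineC A p.1 p.2) 1492992 with h | h
    · exact Or.inl ⟨hp, h⟩
    · exact Or.inr ⟨hp, h⟩
  have h7 : A.offDiag.card + A.card = A.card ^ 2 := by
    rw [offDiag_card, sq]
    exact Nat.sub_add_cancel (Nat.le_mul_self _)
  -- the poor pairs
  have h8 : 4 * (A.offDiag.filter fun p => lineC A p.1 p.2 < 1492992).card ≤
      4 * (a * G.card) + a * (a - G.card) := by
    have e1 : (A.offDiag.filter fun p => lineC A p.1 p.2 < 1492992).card =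
        ∑ s ∈ A, (A.filter fun r => r ≠ s ∧ lineC A s r < 1492992).card := by
      rw [Finset.card_eq_sum_card_fiberwise (f := Prod.fst) (t := A)]
      swap
      · intro p hp
        have := mem_offDiag.1 (mem_filter.1 (mem_coe.1 hp)).1
        exact mem_coe.2 this.1
      refine Finset.sum_congr rfl fun s hs => ?_
      refine Finset.card_bij' (fun p _ => p.2) (fun r _ => (s, r)) ?_ ?_ ?_ ?_
      · intro p hp
        rw [mem_filter, mem_filter, mem_offDiag] at hp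
        obtain ⟨⟨⟨a1, a2, a3⟩, a4⟩, rfl⟩ := hp
        exact mem_filter.2 ⟨a2, Ne.symm a3, a4⟩
      · intro r hr
        obtain ⟨a1, a2, a3⟩ := mem_filter.1 hr
        rw [mem_filter, mem_filter, mem_offDiag]
        exact ⟨⟨⟨hs, a1, Ne.symm a2⟩, a3⟩, rfl⟩
      · intro p hp
        rw [mem_filter, mem_filter, mem_offDiag] at hp
        obtain ⟨⟨⟨a1, a2, a3⟩, a4⟩, rfl⟩ := hp
        rfl
      · intro r hr
        rfl
    have e2 : ∀ s ∈ G, 4 * (A.filter fun r => r ≠ s ∧ lineC A s r < 1492992).card ≤ 4 * a :=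
      fun s hs => Nat.mul_le_mul_left _ (card_le_card (filter_subset _ _))
    have e3 : ∀ s ∈ A \ G, 4 * (A.filter fun r => r ≠ s ∧ lineC A s r < 1492992).card ≤ a := by
      intro s hs
      obtain ⟨h9, h10⟩ := mem_sdiff.1 hs
      have h11 : 5971968 * (lns adj A s).card < a := by
        by_contra hcon
        exact h10 (mem_filter.2 ⟨h9, not_lt.1 hcon⟩)
      have h12 := card_poor_one adj A hadj 1492992 h9
      omega
    rw [e1, Finset.mul_sum, ← Finset.sum_sdiff (filter_subset _ _ : G ⊆ A)]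
    have e4 := Finset.sum_le_card_nsmul _ _ _ e2
    have e5 := Finset.sum_le_card_nsmul _ _ _ e3
    rw [smul_eq_mul] at e4 e5
    rw [card_sdiff_of_subset (filter_subset _ _ : G ⊆ A), ← ha] at e5
    calc _ ≤ (a - G.card) * a + G.card * (4 * a) := Nat.add_le_add e5 e4
      _ = _ := by ring
  have h9 : G.card ≤ a := card_le_card (filter_subset _ _)
  obtain ⟨b, hb⟩ : ∃ b, a = G.card + b := ⟨a - G.card, by omega⟩
  have h10 : a - G.card = b := by omega
  rw [h10] at h8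
  -- `4 a² ≤ 4 a + 4 poor + 4 rich ≤ 4 a + 4 a g + a b + a² + 64 a L`
  have h11 : 4 * a ^ 2 ≤ 4 * a + (4 * (a * G.card) + a * b) + (a ^ 2 + 64 * a * L) := by
    rw [← ha] at h3 h7
    have : 4 * (A.offDiag.card + a) = 4 * a ^ 2 := by rw [h7]
    omega
  rcases Nat.eq_zero_or_pos a with h0 | h0
  · omega
  have h12 : a * (4 * a) ≤ a * (4 + (4 * G.card + b) + (a + 64 * L)) := by
    calc a * (4 * a) = 4 * a ^ 2 := by ring
      _ ≤ _ := h11
      _ = _ := by ring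
  have h13 := Nat.le_of_mul_le_mul_left h12 h0
  omega

open scoped Classical in
/-- **NEAR, all large traces**: `∑ #A² ≤ 4 ∑ #(SFl A)²` with a constant threshold -/
theorem sum_sq_le_SFl (adj : V → V → Prop) (𝓕 : Finset (Finset V))
    (hadj : ∀ A ∈ 𝓕, ∀ s ∈ A, ∀ r ∈ A, s ≠ r → adj s r)
    (L : ℕ) (hL : ∀ A ∈ 𝓕, ∀ p ∈ A.offDiag, lineC A p.1 p.2 ≤ L) (M M' : ℕ)
    (hbig : ∀ A ∈ 𝓕, M ≤ A.card) (hM : 8 * (16 * L + 1) ≤ M) (hM' : 5971968 * M' ≤ M) :
    ∑ A ∈ 𝓕, (A.card : ℝ) ^ 2 ≤ 4 * ∑ A ∈ 𝓕, ((SFl adj (fun _ => M') A).card : ℝ) ^ 2 := by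
  rw [Finset.mul_sum]
  refine Finset.sum_le_sum fun A hA => ?_
  have h1 := card_le_two_good adj A (hadj A hA) L (hL A hA) (hM.trans (hbig A hA))
  have h2 : (A.filter fun s => A.card ≤ 5971968 * (lns adj A s).card) ⊆
      SFl adj (fun _ => M') A := by
    intro s hs
    obtain ⟨h3, h4⟩ := mem_filter.1 hs
    refine mem_SFl.2 ⟨h3, ?_⟩
    have := hbig A hA
    by_contra hcon
    push Not at hcon
    have : 5971968 * (lns adj A s).card < 5971968 * M' := Nat.mul_lt_mul_of_pos_left hcon (by norm_num)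
    omega
  have h3 : (A.card : ℝ) ≤ 2 * (SFl adj (fun _ => M') A).card := by
    exact_mod_cast h1.trans (Nat.mul_le_mul_left _ (card_le_card h2))
  calc (A.card : ℝ) ^ 2 ≤ (2 * (SFl adj (fun _ => M') A).card) ^ 2 := by gcongr
    _ = _ := by ring

end Vale.Agent.P054.T3.H197
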