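import Vale.Agent.P054.T3.H190.Flag
import Vale.Agent.P054.T3.H197.Near

set_option autoImplicit false
set_option linter.all false

/-!
# P054 / T3 / H197: the near-step in terms of `H190.W`, `H190.lns`, `H190.E1`
-/

namespace Vale.Agent.P054.T3.H197

open Finset
open Vale.Agent.P054.T3.H109.Gen (onL lineC lineC_eq)

variable {V κ C : Type*} [AddCommGroup V] [Module ℝ V]

theorem lns_eq (adj : V → V → Prop) (S : Finset V) (s : V) :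
    lns adj S s = H190.lns adj S s := by
  ext ℓ
  rw [mem_lns, H190.mem_lns]
  constructor
  · rintro ⟨r, h1, h2, h3⟩
    exact ⟨r, h1, h2, h3⟩
  · rintro ⟨r, h1, h2, h3⟩
    exact ⟨r, h1, h2, h3⟩

theorem Wf_eq (adj : V → V → Prop) (S : Finset V) : Wf adj S = H190.W adj S := by
  rw [H190.W_eq_sum]
  unfold Wf
  exact Finset.sum_congr rfl fun s _ => by rw [lns_eq]

open scoped Classical in
/-- **NEAR** (local threshold, `n = 2`), number of edges of any edge set which have both ends in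
the rich part of some trace.
`𝓕`: the traces on `S`; `hline`: two different traces share at most one line through `s`. -/
theorem nearW (adj : V → V → Prop) (Ms : V → ℕ) (𝓕 : Finset (Finset V)) (S : Finset V)
    (hS : ∀ A ∈ 𝓕, A ⊆ S) (hadj : ∀ A ∈ 𝓕, ∀ s ∈ A, ∀ r ∈ A, s ≠ r → adj s r)
    (hline : ∀ A ∈ 𝓕, ∀ B ∈ 𝓕, A ≠ B → ∀ s ∈ A, s ∈ B →
      (H190.lns adj A s ∩ H190.lns adj B s).card ≤ 1)
    (cl : V → C) (κ₀ : ℕ) (hcl : ∀ A ∈ 𝓕, (A.image cl).card ≤ κ₀)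
    (L : ℕ) (hL : ∀ A ∈ 𝓕, ∀ p ∈ A.offDiag, lineC A p.1 p.2 ≤ L)
    (c₀ M : ℕ) (hc₀ : 1 ≤ c₀) (hM1 : 1 ≤ M) (hM : ∀ s ∈ S, M ≤ Ms s)
    (hMs : ∀ s ∈ S, 4 * c₀ * (H190.lns adj S s).card ≤ Ms s ^ 2)
    (E : Finset (V × V))
    (hE : ∀ e ∈ E, ∃ A ∈ 𝓕, e.1 ∈ A ∧ e.2 ∈ A ∧ Ms e.1 ≤ (H190.lns adj A e.1).card ∧
      Ms e.2 ≤ (H190.lns adj A e.2).card) :
    (E.card : ℝ) ≤ 1990656 * κ₀ *
      (∑ c ∈ S.image cl, (H190.W adj (S.filter fun s => cl s = c) : ℝ) +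
        (1 / c₀ + 2 * (L + 1) / M) * H190.W adj S) := by
  have h1 := near adj Ms 𝓕 S hS hadj
    (fun A hA B hB hne s hs hs' => by rw [lns_eq, lns_eq]; exact hline A hA B hB hne s hs hs')
    cl κ₀ hcl L hL c₀ M hc₀ hM1 hM (fun s hs => by rw [lns_eq]; exact hMs s hs)
  have h2 : (E.card : ℝ) ≤ ∑ A ∈ 𝓕, ((SFl adj Ms A).card : ℝ) ^ 2 := by
    have h3 : E ⊆ 𝓕.biUnion fun A => SFl adj Ms A ×ˢ SFl adj Ms A := by
      intro e he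
      obtain ⟨A, hA, h4, h5, h6, h7⟩ := hE e he
      rw [mem_biUnion]
      refine ⟨A, hA, mem_product.2 ⟨mem_SFl.2 ⟨h4, ?_⟩, mem_SFl.2 ⟨h5, ?_⟩⟩⟩
      · rw [lns_eq]; exact h6
      · rw [lns_eq]; exact h7
    have h4 := (card_le_card h3).trans card_biUnion_le
    have h5 : (E.card : ℝ) ≤ ∑ A ∈ 𝓕, ((SFl adj Ms A ×ˢ SFl adj Ms A).card : ℝ) := by
      exact_mod_cast h4
    refine h5.trans (le_of_eq (Finset.sum_congr rfl fun A _ => ?_))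
    rw [card_product]
    push_cast
    ring
  refine h2.trans (h1.trans (le_of_eq ?_))
  simp only [Wf_eq]

open scoped Classical in
/-- **NEAR** (all traces with at least `M` points, constant threshold): `∑ #A²` -/
theorem nearW_all (adj : V → V → Prop) (𝓕 : Finset (Finset V)) (S : Finset V)
    (hS : ∀ A ∈ 𝓕, A ⊆ S) (hadj : ∀ A ∈ 𝓕, ∀ s ∈ A, ∀ r ∈ A, s ≠ r → adj s r)
    (hline : ∀ A ∈ 𝓕, ∀ B ∈ 𝓕, A ≠ B → ∀ s ∈ A, s ∈ B →
      (H190.lns adj A s ∩ H190.lns adj B s).card ≤ 1)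
    (cl : V → C) (κ₀ : ℕ) (hcl : ∀ A ∈ 𝓕, (A.image cl).card ≤ κ₀)
    (L : ℕ) (hL : ∀ A ∈ 𝓕, ∀ p ∈ A.offDiag, lineC A p.1 p.2 ≤ L)
    (c₀ M M' : ℕ) (hc₀ : 1 ≤ c₀) (hM1 : 1 ≤ M') (hbig : ∀ A ∈ 𝓕, M ≤ A.card)
    (hML : 8 * (16 * L + 1) ≤ M) (hMM : 5971968 * M' ≤ M)
    (hMs : ∀ s ∈ S, 4 * c₀ * (H190.lns adj S s).card ≤ M' ^ 2) :
    ∑ A ∈ 𝓕, (A.card : ℝ) ^ 2 ≤ 4 * (1990656 * κ₀ *
      (∑ c ∈ S.image cl, (H190.W adj (S.filter fun s => cl s = c) : ℝ) +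
        (1 / c₀ + 2 * (L + 1) / M') * H190.W adj S)) := by
  have h1 := near adj (fun _ => M') 𝓕 S hS hadj
    (fun A hA B hB hne s hs hs' => by rw [lns_eq, lns_eq]; exact hline A hA B hB hne s hs hs')
    cl κ₀ hcl L hL c₀ M' hc₀ hM1 (fun _ _ => le_rfl) (fun s hs => by rw [lns_eq]; exact hMs s hs)
  have h2 := sum_sq_le_SFl adj 𝓕 hadj L hL M M' hbig hML hMM
  refine h2.trans (mul_le_mul_of_nonneg_left (h1.trans (le_of_eq ?_)) (by norm_num))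
  simp only [Wf_eq]

end Vale.Agent.P054.T3.H197
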